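import Vale.Agent.P092.H356.Dich
import Vale.Agent.P092.H632.SD.Frame

/-!
P092 (helper356), Team D, cross-leg commutation in the letters of `SD/Defs`.

Two legs `(lam₁, E₁, F₁)`, `(lam₂, E₂, F₂)` with their covariances. Inputs: the calculi of one leg
commute, `Supp` for the incident pairs of leg 1, the calculi of the same point (line) of the two
legs commute, the flip, and the Moore property of the wall elements. Output (`cross`): all `E₁`
commute with all `E₂`, or all `F₁` with all `F₂`.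
-/

set_option linter.all false

open scoped InnerProductSpace LinearAlgebra.Projectivization
open Filter Topology ContinuousLinearMap

namespace Vale.Agent.P092.H356

open Vale.Agent.P092.SD
open Vale.Agent.P092.RC (Cm TRN Moore Pic)
open Vale.Agent.P092.H820 (inc3 inc3_closed inc3_uniq)

section geo

variable {k : Type} [NontriviallyNormedField k]

lemma inc_symm {x l : PP k} : (x, l) ∈ inc3 (k := k) ↔ (l, x) ∈ inc3 (k := k) := by
  obtain ⟨v, hv, rfl⟩ := H632.SD.pt_surj x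
  obtain ⟨w, hw, rfl⟩ := H632.SD.pt_surj l
  rw [H632.SD.inc_pt, H632.SD.inc_pt, dotProduct_comm]

lemma noC4_inc : NoC4 (inc3 (k := k)) := by
  intro x x' y y' hx hy h1 h2 h3 h4
  exact hy (inc3_uniq x x' y y' hx h1 h2 h4 h3)

/-- two different points have a common line -/
lemma exists_join (x y : PP k) : ∃ l, (x, l) ∈ inc3 (k := k) ∧ (y, l) ∈ inc3 (k := k) := by
  classical
  by_cases hxy : x = y
  · subst hxy
    obtain ⟨v, hv, rfl⟩ := H632.SD.pt_surj x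
    -- a vector orthogonal to `v`
    obtain ⟨w, hw, hvw⟩ : ∃ w : Fin 3 → k, w ≠ 0 ∧ v ⬝ᵥ w = 0 := by
      by_cases h0 : v 0 = 0
      · refine ⟨Pi.single 0 1, H632.SD.single_ne 0, ?_⟩
        simp [h0]
      · refine ⟨![-(v 1), v 0, 0], ?_, ?_⟩
        · intro h
          have := congrFun h 1
          simp at this
          exact h0 this
        · simp [dotProduct, Fin.sum_univ_three]
          ring
    exact ⟨pt k w hw, (H632.SD.inc_pt _ _).2 hvw, (H632.SD.inc_pt _ _).2 hvw⟩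
  · obtain ⟨v, hv, rfl⟩ := H632.SD.pt_surj x
    obtain ⟨w, hw, rfl⟩ := H632.SD.pt_surj y
    have hc : crossProduct v w ≠ 0 := fun h =>
      hxy ((Projectivization.mk_eq_mk_iff_crossProduct_eq_zero hv hw).2 h)
    refine ⟨pt k _ hc, (H632.SD.inc_pt _ _).2 ?_, (H632.SD.inc_pt _ _).2 ?_⟩
    · exact dot_self_cross v w
    · exact dot_cross_self v w

/-- a line through `w` not through `a` -/
lemma exists_line {a w : PP k} (h : a ≠ w) :
    ∃ m, (w, m) ∈ inc3 (k := k) ∧ (a, m) ∉ inc3 (k := k) := by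
  -- a point `b` not on the line `aw`
  obtain ⟨n, hn1, hn2⟩ := exists_join a w
  obtain ⟨b, hb⟩ : ∃ b : PP k, (b, n) ∉ inc3 (k := k) := by
    obtain ⟨u, hu, rfl⟩ := H632.SD.pt_surj n
    obtain ⟨i, hi⟩ : ∃ i, u i ≠ 0 := by
      by_contra hc
      push Not at hc
      exact hu (funext hc)
    refine ⟨ept k i, ?_⟩
    intro h1
    have h2 : (Pi.single i (1 : k) : Fin 3 → k) ⬝ᵥ u = 0 := h1
    rw [single_dotProduct, one_mul] at h2
    exact hi h2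
  obtain ⟨m, hm1, hm2⟩ := exists_join w b
  refine ⟨m, hm1, fun h3 => ?_⟩
  have := inc3_uniq a w n m h hn1 hn2 h3 hm1
  subst this
  exact hb hm2

end geo

section cov

variable {k : Type} [NontriviallyNormedField k] [ProperSpace k] {Γ K : Type}
  [Group Γ] [NormedAddCommGroup K] [InnerProductSpace ℂ K] [CompleteSpace K]

/-- the covariances of a family of calculi (fields of `EFam`) -/
structure Cov (π : G3 k →* (K →L[ℂ] K)) (lam : Γ →* (K →L[ℂ] K)) (W : Set (K →L[ℂ] K))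
    (q : Γ →* G3 k) (E : PP k → (CP k →⋆ₐ[ℂ] (K →L[ℂ] K))) : Prop where
  cm : ∀ a f, Cm W (E a f)
  cov : ∀ γ a f, lam γ * E a f * lam γ⁻¹ = E a (act (q γ) f)
  pcov : ∀ g a f, π g * E a f * π g⁻¹ = E (g • a) f

theorem _root_.Vale.Agent.P092.SD.EFam.toCov {w : kˣ} {π : G3 k →* (K →L[ℂ] K)}
    {lam : Γ →* (K →L[ℂ] K)} {W : Set (K →L[ℂ] K)} {m : Set Γ → (K →L[ℂ] K)} {q : Γ →* G3 k}
    {E : PP k → (CP k →⋆ₐ[ℂ] (K →L[ℂ] K))} (h : EFam w π lam W m q E) : Cov π lam W q E :=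
  ⟨h.cm, h.cov, h.pcov⟩

variable {π : G3 k →* (K →L[ℂ] K)} {lam : Γ →* (K →L[ℂ] K)} {W : Set (K →L[ℂ] K)}
  {q : Γ →* G3 k} {E : PP k → (CP k →⋆ₐ[ℂ] (K →L[ℂ] K))}

lemma disj_act (g : G3 k) (u v : CP k) (h : Disjoint (tsupport u) (tsupport v)) :
    Disjoint (tsupport (act g u)) (tsupport (act g v)) := by
  have e : ∀ f : CP k, tsupport (act g f) = (Homeomorph.smul g⁻¹ : PP k ≃ₜ PP k) ⁻¹' tsupport f :=
    fun f => tsupport_comp_eq_preimage f (Homeomorph.smul g⁻¹ : PP k ≃ₜ PP k)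
  rw [e, e]
  exact h.preimage _

lemma Cov.nzL (h : Cov π lam W q E) (γ : Γ) (a : PP k) : Nz (lam γ) (E a) := by
  refine ⟨act (q γ), disj_act (q γ), fun u => ?_⟩
  rw [← h.cov γ a u, mul_assoc, ← map_mul, inv_mul_cancel, map_one, mul_one]

lemma Cov.nzW (h : Cov π lam W q E) {w : K →L[ℂ] K} (hw : w ∈ W) (a : PP k) : Nz w (E a) :=
  nz_of_comm fun u => (h.cm a u w hw).symm

lemma Cov.nzP (h : Cov π lam W q E) {g : G3 k} {a : PP k} (hg : g • a = a) : Nz (π g) (E a) := by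
  refine nz_of_comm fun u => ?_
  have h1 := h.pcov g a u
  rw [hg] at h1
  have h2 : π g * E a u * π g⁻¹ * π g = E a u * π g := by rw [h1]
  rw [mul_assoc, ← map_mul, inv_mul_cancel, map_one, mul_one] at h2
  exact h2

/-- the same for the lines -/
lemma Cov.nzP' (h : Cov (π.comp (tau k)) lam W q E) {g : G3 k} {a : PP k}
    (hg : tau k g • a = a) : Nz (π g) (E a) := by
  have h1 : Nz ((π.comp (tau k)) (tau k g)) (E a) := h.nzP hg
  have h2 : (π.comp (tau k)) (tau k g) = π g := by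
    change π (tau k (tau k g)) = π g
    rw [H632.SD.tau_tau]
  rwa [h2] at h1

/-- everything which is needed to normalise -/
structure NN (π : G3 k →* (K →L[ℂ] K)) (lam : Γ →* (K →L[ℂ] K)) (W : Set (K →L[ℂ] K))
    (c : G3 k) (φ : CP k →⋆ₐ[ℂ] (K →L[ℂ] K)) : Prop where
  w : ∀ x ∈ W, Nz x φ
  l : ∀ γ, Nz (lam γ) φ
  p : Nz (π c) φ
  p' : Nz (π c⁻¹) φ

theorem cr {lam₁ : Γ →* (K →L[ℂ] K)} {Ω : K} (hP : Pic π lam₁ W Ω) {c : G3 k}
    (hM : Moore ({c} : Set (G3 k))) {I : Set (PP k × PP k)} (hI : IsClosed I) (h4 : NoC4 I)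
    {P Q R S : CP k →⋆ₐ[ℂ] (K →L[ℂ] K)} (hc : Carr I P Q) (hPQ : ∀ u v, Commute (P u) (Q v))
    (hR : ∀ f u, Commute (R f) (P u)) (hS : ∀ g v, Commute (S g) (Q v))
    (hRS : ∀ f g, Commute (R f) (S g)) (nP : NN π lam₁ W c P) (nQ : NN π lam₁ W c Q)
    (nR : NN π lam₁ W c R) (nS : NN π lam₁ W c S) :
    (∀ f g, Commute (R f) (Q g)) ∨ (∀ f g, Commute (S f) (P g)) := by
  refine dich hI h4 hc hPQ hR hS hRS (W ∪ Set.range lam₁ ∪ {π c, π c⁻¹}) ?_ ?_ ?_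
  · rintro U ((hU | ⟨γ, rfl⟩) | hU)
    · exact Or.inl (Or.inl (hP.Wadj U hU))
    · rw [hP.adjL]
      exact Or.inl (Or.inr ⟨_, rfl⟩)
    · rcases hU with rfl | hU
      · rw [hP.adjP]
        exact Or.inr (Or.inr rfl)
      · rw [Set.mem_singleton_iff] at hU
        subst hU
        rw [hP.adjP, inv_inv]
        exact Or.inr (Or.inl rfl)
  · rintro U ((hU | ⟨γ, rfl⟩) | hU)
    · exact ⟨nP.w U hU, nQ.w U hU, nR.w U hU, nS.w U hU⟩
    · exact ⟨nP.l γ, nQ.l γ, nR.l γ, nS.l γ⟩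
    · rcases hU with rfl | hU
      · exact ⟨nP.p, nQ.p, nR.p, nS.p⟩
      · rw [Set.mem_singleton_iff] at hU
        subst hU
        exact ⟨nP.p', nQ.p', nR.p', nS.p'⟩
  · intro Z hZ
    refine hP.erg {c} hM Z (fun w hw => hZ w (Or.inl (Or.inl hw)))
      (fun γ => hZ _ (Or.inl (Or.inr ⟨γ, rfl⟩))) (fun g hg => ?_)
    rw [Set.mem_singleton_iff] at hg
    subst hg
    exact hZ _ (Or.inr (Or.inl rfl))

end cov

/-! ### The two legs -/

section legs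

variable {k : Type} [NontriviallyNormedField k] [ProperSpace k] {Γ K : Type}
  [Group Γ] [NormedAddCommGroup K] [InnerProductSpace ℂ K] [CompleteSpace K]

/-- The data of the two legs. -/
structure TwoLeg (w : kˣ) (π : G3 k →* (K →L[ℂ] K)) (lam₁ lam₂ : Γ →* (K →L[ℂ] K))
    (X : Set (K →L[ℂ] K)) (Ω : K) (q₁ q₂ : Γ →* G3 k)
    (E₁ F₁ E₂ F₂ : PP k → (CP k →⋆ₐ[ℂ] (K →L[ℂ] K))) : Prop where
  pic : Pic π lam₁ (X ∪ Set.range lam₂) Ω
  e₁ : Cov π lam₁ (X ∪ Set.range lam₂) q₁ E₁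
  f₁ : Cov (π.comp (tau k)) lam₁ (X ∪ Set.range lam₂) ((tau k).comp q₁) F₁
  e₂ : Cov π lam₂ (X ∪ Set.range lam₁) q₂ E₂
  f₂ : Cov (π.comp (tau k)) lam₂ (X ∪ Set.range lam₁) ((tau k).comp q₂) F₂
  moore : ∀ g : G3 k, Moore ({g * bw w * g⁻¹} : Set (G3 k))
  supp : ∀ a l, (a, l) ∈ inc3 (k := k) → Supp (E₁ a) (F₁ l)
  com₁ : ∀ a l, (a, l) ∈ inc3 (k := k) → ∀ f h, Commute (E₁ a f) (F₁ l h)
  com₂ : ∀ a l f h, Commute (E₂ a f) (F₂ l h)
  samE : ∀ a f g, Commute (E₁ a f) (E₂ a g)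
  samF : ∀ l f g, Commute (F₁ l f) (F₂ l g)
  flip : ∀ a l, (∀ f h, Commute (E₂ a f) (F₁ l h)) ↔ ∀ f h, Commute (E₁ a f) (F₂ l h)

variable {w : kˣ} {π : G3 k →* (K →L[ℂ] K)} {lam₁ lam₂ : Γ →* (K →L[ℂ] K)}
  {X : Set (K →L[ℂ] K)} {Ω : K} {q₁ q₂ : Γ →* G3 k}
  {E₁ F₁ E₂ F₂ : PP k → (CP k →⋆ₐ[ℂ] (K →L[ℂ] K))}

lemma TwoLeg.nE₁ (h : TwoLeg w π lam₁ lam₂ X Ω q₁ q₂ E₁ F₁ E₂ F₂) {c : G3 k} {a : PP k}
    (hc : c • a = a) : NN π lam₁ (X ∪ Set.range lam₂) c (E₁ a) :=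
  ⟨fun x hx => h.e₁.nzW hx a, fun γ => h.e₁.nzL γ a, h.e₁.nzP hc,
    h.e₁.nzP (by rw [inv_smul_eq_iff, hc])⟩

lemma TwoLeg.nF₁ (h : TwoLeg w π lam₁ lam₂ X Ω q₁ q₂ E₁ F₁ E₂ F₂) {c : G3 k} {l : PP k}
    (hc : tau k c • l = l) : NN π lam₁ (X ∪ Set.range lam₂) c (F₁ l) :=
  ⟨fun x hx => h.f₁.nzW hx l, fun γ => h.f₁.nzL γ l, h.f₁.nzP' hc,
    h.f₁.nzP' (by rw [map_inv, inv_smul_eq_iff, hc])⟩

lemma TwoLeg.nE₂ (h : TwoLeg w π lam₁ lam₂ X Ω q₁ q₂ E₁ F₁ E₂ F₂) {c : G3 k} {a : PP k}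
    (hc : c • a = a) : NN π lam₁ (X ∪ Set.range lam₂) c (E₂ a) := by
  refine ⟨?_, fun γ => h.e₂.nzW (Or.inr ⟨γ, rfl⟩) a, h.e₂.nzP hc,
    h.e₂.nzP (by rw [inv_smul_eq_iff, hc])⟩
  rintro x (hx | ⟨γ, rfl⟩)
  · exact h.e₂.nzW (Or.inl hx) a
  · exact h.e₂.nzL γ a

lemma TwoLeg.nF₂ (h : TwoLeg w π lam₁ lam₂ X Ω q₁ q₂ E₁ F₁ E₂ F₂) {c : G3 k} {l : PP k}
    (hc : tau k c • l = l) : NN π lam₁ (X ∪ Set.range lam₂) c (F₂ l) := by
  refine ⟨?_, fun γ => h.f₂.nzW (Or.inr ⟨γ, rfl⟩) l, h.f₂.nzP' hc,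
    h.f₂.nzP' (by rw [map_inv, inv_smul_eq_iff, hc])⟩
  rintro x (hx | ⟨γ, rfl⟩)
  · exact h.f₂.nzW (Or.inl hx) l
  · exact h.f₂.nzL γ l

lemma carr_EF (h : TwoLeg w π lam₁ lam₂ X Ω q₁ q₂ E₁ F₁ E₂ F₂) {a l : PP k}
    (hal : (a, l) ∈ inc3 (k := k)) : Carr (inc3 (k := k)) (E₁ a) (F₁ l) :=
  fun u v huv => h.supp a l hal u v huv

lemma carr_FE (h : TwoLeg w π lam₁ lam₂ X Ω q₁ q₂ E₁ F₁ E₂ F₂) {a l : PP k}
    (hal : (a, l) ∈ inc3 (k := k)) : Carr (inc3 (k := k)) (F₁ l) (E₁ a) := by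
  intro u v huv
  rw [← (h.com₁ a l hal v u).eq]
  refine h.supp a l hal v u fun x hx y hy hxy => ?_
  exact huv y hy x hx (inc_symm.1 hxy)

lemma fix_of {g : G3 k} {w : kˣ} (i : Fin 3) :
    (g * bw w * g⁻¹) • (g • ept k i) = g • ept k i := by
  rw [smul_smul, mul_assoc, mul_assoc, inv_mul_cancel, mul_one, ← smul_smul, H632.SD.bw_fix]

lemma tfix_of {g : G3 k} {w : kˣ} (i : Fin 3) :
    tau k (g * bw w * g⁻¹) • (tau k g • ept k i) = tau k g • ept k i := by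
  rw [map_mul, map_mul, H632.SD.tau_bw, map_inv]
  exact fix_of i

/-- (B) incident pairs commute across the legs -/
theorem TwoLeg.inc (h : TwoLeg w π lam₁ lam₂ X Ω q₁ q₂ E₁ F₁ E₂ F₂) {a l : PP k}
    (hal : (a, l) ∈ inc3 (k := k)) :
    (∀ f g, Commute (E₂ a f) (F₁ l g)) ∧ ∀ f g, Commute (E₁ a f) (F₂ l g) := by
  -- a point not on `l`
  obtain ⟨b, hb⟩ : ∃ b : PP k, (b, l) ∉ inc3 (k := k) := by
    obtain ⟨u, hu, rfl⟩ := H632.SD.pt_surj l
    obtain ⟨i, hi⟩ : ∃ i, u i ≠ 0 := by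
      by_contra hc
      push Not at hc
      exact hu (funext hc)
    refine ⟨ept k i, ?_⟩
    intro h1
    have h2 : (Pi.single i (1 : k) : Fin 3 → k) ⬝ᵥ u = 0 := h1
    rw [single_dotProduct, one_mul] at h2
    exact hi h2
  obtain ⟨g, ha, -, hl⟩ := H632.SD.exists_g3 hal hb
  have hca : (g * bw w * g⁻¹) • a = a := by rw [← ha]; exact fix_of 0
  have hcl : tau k (g * bw w * g⁻¹) • l = l := by rw [← hl]; exact tfix_of 2
  rcases cr h.pic (h.moore g) inc3_closed noC4_inc (carr_EF h hal) (h.com₁ a l hal)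
    (fun f u => (h.samE a u f).symm) (fun f u => (h.samF l u f).symm)
    (fun f u => h.com₂ a l f u) (h.nE₁ hca) (h.nF₁ hcl) (h.nE₂ hca) (h.nF₂ hcl) with h1 | h1
  · exact ⟨h1, (h.flip a l).1 h1⟩
  · have h2 : ∀ f u, Commute (E₁ a f) (F₂ l u) := fun f u => (h1 u f).symm
    exact ⟨(h.flip a l).2 h2, h2⟩

/-- (C) for one triple -/
theorem TwoLeg.triple (h : TwoLeg w π lam₁ lam₂ X Ω q₁ q₂ E₁ F₁ E₂ F₂) (g : G3 k) :
    (∀ f u, Commute (E₁ (g • ept k 0) f) (E₂ (g • ept k 2) u)) ∨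
      ∀ f u, Commute (F₁ (tau k g • ept k 1) f) (F₂ (tau k g • ept k 2) u) := by
  -- incidences of the frame
  have hinc : ∀ i j : Fin 3, i ≠ j → (g • ept k i, tau k g • ept k j) ∈ inc3 (k := k) := by
    intro i j hij
    have h1 : (g • ept k i, tau k g • ept k j) =
        (pt k (g.1.mulVec (Pi.single i 1)) (H632.SD.mulVec_ne g (H632.SD.single_ne i)),
          pt k ((tau k g).1.mulVec (Pi.single j 1))
            (H632.SD.mulVec_ne (tau k g) (H632.SD.single_ne j))) := rfl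
    rw [h1, H632.SD.inc_pt, H632.SD.tau_apply, Matrix.dotProduct_mulVec, Matrix.vecMul_transpose,
      Matrix.mulVec_mulVec, ← Matrix.SpecialLinearGroup.coe_mul, inv_mul_cancel,
      Matrix.SpecialLinearGroup.coe_one, Matrix.one_mulVec, dotProduct_single, mul_one]
    simp [Pi.single_apply, hij.symm]
  have h1 := cr h.pic (h.moore g) inc3_closed noC4_inc (carr_FE h (hinc 0 1 (by decide)))
    (fun u v => (h.com₁ _ _ (hinc 0 1 (by decide)) v u).symm)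
    (R := E₂ (g • ept k 2)) (S := F₂ (tau k g • ept k 2))
    (fun f u => (h.inc (hinc 2 1 (by decide))).1 f u)
    (fun f u => ((h.inc (hinc 0 2 (by decide))).2 u f).symm)
    (fun f u => h.com₂ _ _ f u) (h.nF₁ (tfix_of 1)) (h.nE₁ (fix_of 0)) (h.nE₂ (fix_of 2))
    (h.nF₂ (tfix_of 2))
  rcases h1 with h1 | h1
  · exact Or.inl fun f u => (h1 u f).symm
  · exact Or.inr fun f u => (h1 u f).symm

/-- conjugation by `π g` moves a commutation of points -/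
lemma moveE (h : TwoLeg w π lam₁ lam₂ X Ω q₁ q₂ E₁ F₁ E₂ F₂) {a b : PP k}
    (hab : ∀ f u, Commute (E₁ a f) (E₂ b u)) (g : G3 k) (f u : CP k) :
    Commute (E₁ (g • a) f) (E₂ (g • b) u) := by
  rw [← h.e₁.pcov, ← h.e₂.pcov]
  have e1 : π g⁻¹ * π g = 1 := by rw [← map_mul, inv_mul_cancel, map_one]
  show π g * E₁ a f * π g⁻¹ * (π g * E₂ b u * π g⁻¹) = π g * E₂ b u * π g⁻¹ * (π g * E₁ a f * π g⁻¹)
  calc π g * E₁ a f * π g⁻¹ * (π g * E₂ b u * π g⁻¹)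
      = π g * E₁ a f * (π g⁻¹ * π g) * (E₂ b u * π g⁻¹) := by simp only [mul_assoc]
    _ = π g * (E₁ a f * E₂ b u) * π g⁻¹ := by rw [e1]; simp only [mul_assoc, mul_one, one_mul]
    _ = π g * (E₂ b u * E₁ a f) * π g⁻¹ := by rw [(hab f u).eq]
    _ = π g * E₂ b u * (π g⁻¹ * π g) * (E₁ a f * π g⁻¹) := by
        rw [e1]; simp only [mul_assoc, mul_one, one_mul]
    _ = _ := by simp only [mul_assoc]

lemma moveF (h : TwoLeg w π lam₁ lam₂ X Ω q₁ q₂ E₁ F₁ E₂ F₂) {a b : PP k}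
    (hab : ∀ f u, Commute (F₁ a f) (F₂ b u)) (g : G3 k) (f u : CP k) :
    Commute (F₁ (g • a) f) (F₂ (g • b) u) := by
  rw [← h.f₁.pcov, ← h.f₂.pcov]
  set ρ := π.comp (tau k)
  have e1 : ρ g⁻¹ * ρ g = 1 := by rw [← map_mul, inv_mul_cancel, map_one]
  show ρ g * F₁ a f * ρ g⁻¹ * (ρ g * F₂ b u * ρ g⁻¹) = ρ g * F₂ b u * ρ g⁻¹ * (ρ g * F₁ a f * ρ g⁻¹)
  calc ρ g * F₁ a f * ρ g⁻¹ * (ρ g * F₂ b u * ρ g⁻¹)
      = ρ g * F₁ a f * (ρ g⁻¹ * ρ g) * (F₂ b u * ρ g⁻¹) := by simp only [mul_assoc]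
    _ = ρ g * (F₁ a f * F₂ b u) * ρ g⁻¹ := by rw [e1]; simp only [mul_assoc, mul_one, one_mul]
    _ = ρ g * (F₂ b u * F₁ a f) * ρ g⁻¹ := by rw [(hab f u).eq]
    _ = ρ g * F₂ b u * (ρ g⁻¹ * ρ g) * (F₁ a f * ρ g⁻¹) := by
        rw [e1]; simp only [mul_assoc, mul_one, one_mul]
    _ = _ := by simp only [mul_assoc]

/-- **Cross-leg commutation.** -/
theorem TwoLeg.cross (h : TwoLeg w π lam₁ lam₂ X Ω q₁ q₂ E₁ F₁ E₂ F₂) :
    (∀ a b f u, Commute (E₁ a f) (E₂ b u)) ∨ ∀ l m f u, Commute (F₁ l f) (F₂ m u) := by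
  rcases h.triple 1 with h0 | h0
  · left
    simp only [one_smul, map_one] at h0
    intro b a f u
    by_cases hab : a = b
    · subst hab
      exact h.samE a f u
    · obtain ⟨l, hl1, hl2⟩ := exists_line hab
      obtain ⟨g, hg1, hg2, -⟩ := H632.SD.exists_g3 hl1 hl2
      rw [← hg1, ← hg2]
      exact moveE h h0 g f u
  · right
    simp only [one_smul, map_one] at h0
    intro n m f u
    by_cases hnm : n = m
    · subst hnm
      exact h.samF n f u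
    · -- `w` on both lines, `a` on `n` and not on `m`
      obtain ⟨w', hw1, hw2⟩ := exists_join n m
      rw [inc_symm] at hw1 hw2
      obtain ⟨a, ha1, ha2⟩ := exists_line (a := m) (w := n) (Ne.symm hnm)
      rw [inc_symm] at ha1
      rw [inc_symm] at ha2
      obtain ⟨g, hg1, hg2, hg3⟩ := H632.SD.exists_g3 hw2 ha2
      have hn : tau k g • ept k 1 = n := by
        have hne : w' ≠ a := by
          rintro rfl
          exact ha2 hw2
        have hinc : ∀ i j : Fin 3, i ≠ j → (g • ept k i, tau k g • ept k j) ∈ inc3 (k := k) := by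
          intro i j hij
          have h1 : (g • ept k i, tau k g • ept k j) =
              (pt k (g.1.mulVec (Pi.single i 1)) (H632.SD.mulVec_ne g (H632.SD.single_ne i)),
                pt k ((tau k g).1.mulVec (Pi.single j 1))
                  (H632.SD.mulVec_ne (tau k g) (H632.SD.single_ne j))) := rfl
          rw [h1, H632.SD.inc_pt, H632.SD.tau_apply, Matrix.dotProduct_mulVec,
            Matrix.vecMul_transpose,
            Matrix.mulVec_mulVec, ← Matrix.SpecialLinearGroup.coe_mul, inv_mul_cancel,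
            Matrix.SpecialLinearGroup.coe_one, Matrix.one_mulVec, dotProduct_single, mul_one]
          simp [Pi.single_apply, hij.symm]
        refine inc3_uniq w' a _ _ hne ?_ ?_ hw1 ha1
        · rw [← hg1]; exact hinc 0 1 (by decide)
        · rw [← hg2]; exact hinc 2 1 (by decide)
      rw [← hn, ← hg3]
      exact moveF h h0 (tau k g) f u

end legs

end Vale.Agent.P092.H356
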