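import Vale.Agent.P092.H356.Rect
import Vale.Agent.P092.H218.Loc

/-!
P092 (helper356), Team D, cross-leg commutation: the subspace `Zs` moved by a family of operators
relative to a calculus, and the dichotomy `dich`: `R` commutes with `Q` or `S` commutes with `P`.
-/

set_option linter.unusedSectionVars false
set_option linter.unusedVariables false

namespace Vale.Agent.P092.H356

open scoped InnerProductSpace
open Topology Filter Set ContinuousLinearMap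

variable {X Y X' Y' K : Type*} [TopologicalSpace X] [CompactSpace X] [T2Space X]
  [TopologicalSpace Y] [CompactSpace Y] [T2Space Y]
  [TopologicalSpace X'] [CompactSpace X'] [T2Space X']
  [TopologicalSpace Y'] [CompactSpace Y'] [T2Space Y']
  [NormedAddCommGroup K] [InnerProductSpace ℂ K] [CompleteSpace K]

/-! ### The subspace `Zs` -/

/-- the vectors `Q u (R f (Q v ξ))`, `u, v` with disjoint supports -/
def Zv (R : C(X, ℂ) →⋆ₐ[ℂ] (K →L[ℂ] K)) (Q : C(Y, ℂ) →⋆ₐ[ℂ] (K →L[ℂ] K)) : Set K :=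
  {ζ | ∃ (f : C(X, ℂ)) (u v : C(Y, ℂ)), Disjoint (tsupport u) (tsupport v) ∧
    ∃ ξ, ζ = Q u (R f (Q v ξ))}

/-- their closed span -/
noncomputable def Zs (R : C(X, ℂ) →⋆ₐ[ℂ] (K →L[ℂ] K)) (Q : C(Y, ℂ) →⋆ₐ[ℂ] (K →L[ℂ] K)) :
    Submodule ℂ K :=
  (Submodule.span ℂ (Zv R Q)).topologicalClosure

lemma mem_Zs {R : C(X, ℂ) →⋆ₐ[ℂ] (K →L[ℂ] K)} {Q : C(Y, ℂ) →⋆ₐ[ℂ] (K →L[ℂ] K)} {ζ : K}
    (h : ζ ∈ Zv R Q) : ζ ∈ Zs R Q :=
  Submodule.le_topologicalClosure _ (Submodule.subset_span h)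

lemma Zs_closed (R : C(X, ℂ) →⋆ₐ[ℂ] (K →L[ℂ] K)) (Q : C(Y, ℂ) →⋆ₐ[ℂ] (K →L[ℂ] K)) :
    IsClosed (Zs R Q : Set K) := Submodule.isClosed_topologicalClosure _

lemma comm_of_bot {R : C(X, ℂ) →⋆ₐ[ℂ] (K →L[ℂ] K)} {Q : C(Y, ℂ) →⋆ₐ[ℂ] (K →L[ℂ] K)}
    (h : Zs R Q = ⊥) (f : C(X, ℂ)) (g : C(Y, ℂ)) : Commute (R f) (Q g) := by
  refine H218.loc_op Q Q (R f) (fun a b hab => ?_) g
  ext ξ
  have h1 : Q a (R f (Q b ξ)) ∈ Zs R Q := mem_Zs ⟨f, a, b, hab, ξ, rfl⟩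
  rw [h, Submodule.mem_bot] at h1
  exact h1

/-- a bounded operator which maps `Zv` into `Zs` maps `Zs` into `Zs` -/
lemma map_Zs {R : C(X, ℂ) →⋆ₐ[ℂ] (K →L[ℂ] K)} {Q : C(Y, ℂ) →⋆ₐ[ℂ] (K →L[ℂ] K)}
    {U : K →L[ℂ] K} (h : ∀ ζ ∈ Zv R Q, U ζ ∈ Zs R Q) {ζ : K} (hζ : ζ ∈ Zs R Q) :
    U ζ ∈ Zs R Q := by
  have h1 : Submodule.span ℂ (Zv R Q) ≤ (Zs R Q).comap (U : K →ₗ[ℂ] K) :=
    Submodule.span_le.2 h
  have h2 : (Zs R Q : Set K) ⊆ U ⁻¹' (Zs R Q : Set K) := by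
    have h3 : IsClosed (U ⁻¹' (Zs R Q : Set K)) := (Zs_closed R Q).preimage U.continuous
    have h4 : ((Submodule.span ℂ (Zv R Q) : Submodule ℂ K) : Set K) ⊆
        U ⁻¹' (Zs R Q : Set K) := h1
    exact closure_minimal h4 h3
  exact h2 hζ

/-- `U` normalises the calculus `φ` -/
def Nz (U : K →L[ℂ] K) (φ : C(X, ℂ) →⋆ₐ[ℂ] (K →L[ℂ] K)) : Prop :=
  ∃ σ : C(X, ℂ) → C(X, ℂ),
    (∀ u v : C(X, ℂ), Disjoint (tsupport u) (tsupport v) →
      Disjoint (tsupport (σ u)) (tsupport (σ v))) ∧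
    ∀ u : C(X, ℂ), U * φ u = φ (σ u) * U

lemma nz_of_comm {U : K →L[ℂ] K} {φ : C(X, ℂ) →⋆ₐ[ℂ] (K →L[ℂ] K)}
    (h : ∀ u, Commute U (φ u)) : Nz U φ :=
  ⟨id, fun _ _ h => h, fun u => (h u).eq⟩

lemma map_Zs_of_nz {R : C(X, ℂ) →⋆ₐ[ℂ] (K →L[ℂ] K)} {Q : C(Y, ℂ) →⋆ₐ[ℂ] (K →L[ℂ] K)}
    {U : K →L[ℂ] K} (hR : Nz U R) (hQ : Nz U Q) {ζ : K} (hζ : ζ ∈ Zs R Q) : U ζ ∈ Zs R Q := by
  obtain ⟨σ, -, hσ⟩ := hR
  obtain ⟨τ, hτd, hτ⟩ := hQ
  refine map_Zs (fun ζ hζ => ?_) hζ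
  obtain ⟨f, u, v, huv, ξ, rfl⟩ := hζ
  refine mem_Zs ⟨σ f, τ u, τ v, hτd u v huv, U ξ, ?_⟩
  have h1 := congrArg (fun A : K →L[ℂ] K => A (R f (Q v ξ))) (hτ u)
  have h2 := congrArg (fun A : K →L[ℂ] K => A (Q v ξ)) (hσ f)
  have h3 := congrArg (fun A : K →L[ℂ] K => A ξ) (hτ v)
  change U (Q u (R f (Q v ξ))) = Q (τ u) (U (R f (Q v ξ))) at h1
  change U (R f (Q v ξ)) = R (σ f) (U (Q v ξ)) at h2
  change U (Q v ξ) = Q (τ v) (U ξ) at h3
  rw [h1, h2, h3]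

/-- the projection onto a closed subspace invariant under `U` and `U*` commutes with `U` -/
lemma proj_comm {M : Submodule ℂ K} [M.HasOrthogonalProjection] {U : K →L[ℂ] K}
    (h1 : ∀ ζ ∈ M, U ζ ∈ M) (h2 : ∀ ζ ∈ M, adjoint U ζ ∈ M) :
    M.starProjection * U = U * M.starProjection := by
  ext ξ
  change M.starProjection (U ξ) = U (M.starProjection ξ)
  refine (Submodule.eq_starProjection_of_mem_orthogonal (h1 _ (M.starProjection_apply_mem ξ))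
    ?_)
  have h3 : U ξ - U (M.starProjection ξ) = U (ξ - M.starProjection ξ) := by rw [map_sub]
  rw [h3]
  intro ζ hζ
  rw [← adjoint_inner_left]
  exact (M.sub_starProjection_mem_orthogonal ξ) _ (h2 ζ hζ)

/-! ### Orthogonality -/

lemma tsupport_star (u : C(X, ℂ)) : tsupport ((star u : C(X, ℂ)) : X → ℂ) = tsupport u := by
  unfold tsupport
  congr 1
  ext x
  simp [Function.mem_support]

theorem orth {I : Set (X × Y)} (hI : IsClosed I) (h4 : NoC4 I)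
    {P : C(X, ℂ) →⋆ₐ[ℂ] (K →L[ℂ] K)} {Q : C(Y, ℂ) →⋆ₐ[ℂ] (K →L[ℂ] K)} (hc : Carr I P Q)
    (hPQ : ∀ u v, Commute (P u) (Q v))
    {R : C(X', ℂ) →⋆ₐ[ℂ] (K →L[ℂ] K)} {S : C(Y', ℂ) →⋆ₐ[ℂ] (K →L[ℂ] K)}
    (hR : ∀ f u, Commute (R f) (P u)) (hS : ∀ g v, Commute (S g) (Q v))
    (hRS : ∀ f g, Commute (R f) (S g)) {ζ η : K} (hζ : ζ ∈ Zs R Q) (hη : η ∈ Zs S P) :
    ⟪η, ζ⟫_ℂ = 0 := by
  -- the generators
  have gen : ∀ ζ ∈ Zv R Q, ∀ η ∈ Zv S P, ⟪η, ζ⟫_ℂ = 0 := by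
    rintro _ ⟨f, u, v, huv, ξ, rfl⟩ _ ⟨g, s, r, hsr, ω, rfl⟩
    have e1 : ⟪P s (S g (P r ω)), Q u (R f (Q v ξ))⟫_ℂ =
        ⟪ω, (P (star r) * S (star g) * P (star s) * Q u * R f * Q v) ξ⟫_ℂ := by
      rw [map_star, map_star, map_star]
      change _ = ⟪ω, (star (P r)) ((star (S g)) ((star (P s)) (Q u (R f (Q v ξ)))))⟫_ℂ
      rw [star_eq_adjoint, star_eq_adjoint, star_eq_adjoint, adjoint_inner_right,
        adjoint_inner_right, adjoint_inner_right]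
    have e2 : P (star r) * S (star g) * P (star s) * Q u * R f * Q v =
        P (star r) * Q u * S (star g) * R f * P (star s) * Q v := by
      calc P (star r) * S (star g) * P (star s) * Q u * R f * Q v
          = P (star r) * S (star g) * (P (star s) * Q u) * R f * Q v := by
            simp only [mul_assoc]
        _ = P (star r) * (S (star g) * Q u) * (P (star s) * R f) * Q v := by
            rw [(hPQ _ _).eq]; simp only [mul_assoc]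
        _ = P (star r) * (Q u * S (star g)) * (R f * P (star s)) * Q v := by
            rw [(hS _ _).eq, ← (hR _ _).eq]
        _ = _ := by simp only [mul_assoc]
    rw [e1, e2, rect hI h4 hc hPQ (hR f) (hS (star g)) (hRS f (star g)) (star r) (star s) u v
      (by rw [tsupport_star, tsupport_star]; exact hsr.symm) huv]
    simp
  -- closure in the first variable
  have c1 : ∀ η ∈ Zv S P, ∀ ζ ∈ Zs R Q, ⟪η, ζ⟫_ℂ = 0 := by
    intro η hη ζ hζ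
    have h1 : Submodule.span ℂ (Zv R Q) ≤ (LinearMap.ker (innerSL ℂ η).toLinearMap) :=
      Submodule.span_le.2 fun ζ hζ => by
        show (innerSL ℂ η) ζ = 0
        simpa using gen ζ hζ η hη
    have h2 : (Zs R Q : Set K) ⊆ {ζ | ⟪η, ζ⟫_ℂ = 0} := by
      refine closure_minimal (fun z hz => ?_)
        (isClosed_eq (continuous_const.inner continuous_id) continuous_const)
      have := h1 hz
      simpa using this
    exact h2 hζ
  have h3 : (Zs S P : Set K) ⊆ {η | ⟪η, ζ⟫_ℂ = 0} := by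
    refine closure_minimal (fun z hz => ?_)
      (isClosed_eq (continuous_id.inner continuous_const) continuous_const)
    have h4 : Submodule.span ℂ (Zv S P) ≤ (Submodule.span ℂ {ζ})ᗮ := by
      refine Submodule.span_le.2 fun w hw => ?_
      rw [SetLike.mem_coe, Submodule.mem_orthogonal_singleton_iff_inner_right]
      rw [← inner_conj_symm, c1 w hw ζ hζ, map_zero]
    have h5 := h4 hz
    rw [Submodule.mem_orthogonal_singleton_iff_inner_right] at h5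
    show ⟪z, ζ⟫_ℂ = 0
    rw [← inner_conj_symm, h5, map_zero]
  exact h3 hη

/-! ### The dichotomy -/

/-- If the projection onto `Zs R Q` is a scalar for each of the two pairs, one of them vanishes. -/
theorem dich {I : Set (X × Y)} (hI : IsClosed I) (h4 : NoC4 I)
    {P : C(X, ℂ) →⋆ₐ[ℂ] (K →L[ℂ] K)} {Q : C(Y, ℂ) →⋆ₐ[ℂ] (K →L[ℂ] K)} (hc : Carr I P Q)
    (hPQ : ∀ u v, Commute (P u) (Q v))
    {R : C(X', ℂ) →⋆ₐ[ℂ] (K →L[ℂ] K)} {S : C(Y', ℂ) →⋆ₐ[ℂ] (K →L[ℂ] K)}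
    (hR : ∀ f u, Commute (R f) (P u)) (hS : ∀ g v, Commute (S g) (Q v))
    (hRS : ∀ f g, Commute (R f) (S g))
    (𝒰 : Set (K →L[ℂ] K)) (hadj : ∀ U ∈ 𝒰, adjoint U ∈ 𝒰)
    (hn : ∀ U ∈ 𝒰, Nz U P ∧ Nz U Q ∧ Nz U R ∧ Nz U S)
    (erg : ∀ Z : K →L[ℂ] K, (∀ U ∈ 𝒰, Z * U = U * Z) → ∃ z : ℂ, Z = z • (1 : K →L[ℂ] K)) :
    (∀ f g, Commute (R f) (Q g)) ∨ (∀ f g, Commute (S f) (P g)) := by
  haveI i1 : CompleteSpace (Zs R Q) := (Zs_closed R Q).completeSpace_coe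
  obtain ⟨z, hz⟩ := erg (Zs R Q).starProjection fun U hU =>
    proj_comm (fun ζ hζ => map_Zs_of_nz (hn U hU).2.2.1 (hn U hU).2.1 hζ)
      (fun ζ hζ => map_Zs_of_nz (hn _ (hadj U hU)).2.2.1 (hn _ (hadj U hU)).2.1 hζ)
  by_cases hz0 : z = 0
  · left
    refine comm_of_bot ?_
    rw [hz0, zero_smul] at hz
    rw [Submodule.eq_bot_iff]
    intro x hx
    have := (Submodule.starProjection_eq_self_iff).2 hx
    rw [← this, hz]
    rfl
  · right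
    refine comm_of_bot ?_
    rw [Submodule.eq_bot_iff]
    intro x hx
    have h1 : x ∈ Zs R Q := by
      have h2 : (Zs R Q).starProjection (z⁻¹ • x) = x := by
        rw [hz]
        simp [hz0]
      rw [← h2]
      exact Submodule.starProjection_apply_mem _ _
    have h2 := orth hI h4 hc hPQ hR hS hRS h1 hx
    exact inner_self_eq_zero.1 h2

end Vale.Agent.P092.H356
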