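import Mathlib

/-!
P092 (helper356), Team D, cross-leg commutation: the rectangle lemma.

`P : C(X,ℂ) → B(K)`, `Q : C(Y,ℂ) → B(K)` commuting unital `*`-homomorphisms carried by a closed
relation `I ⊆ X × Y` without 4-cycles; `T` commutes with `P`, `T'` commutes with `Q`, and
`T T' = T' T`. Then `P α · Q χ' · T' · T · P χ · Q β = 0` whenever `α, χ` and `χ', β` have
disjoint supports.
-/

set_option linter.unusedSectionVars false
set_option linter.unusedVariables false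

namespace Vale.Agent.P092.H356

open scoped InnerProductSpace
open Topology Filter Set

/-! ### Local vanishing implies vanishing -/

section loc

variable {Y : Type*} [TopologicalSpace Y] [CompactSpace Y] [T2Space Y]

/-- A property of functions which is additive and holds locally, uniformly along a filter, holds
on compact sets. -/
theorem tube {ω : Type*} (l : Filter ω) (G : ω → C(Y, ℂ) → Prop) (h0 : ∀ o, G o 0)
    (ha : ∀ o u v, G o u → G o v → G o (u + v)) {D : Set Y} (hD : IsCompact D)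
    (h : ∀ y ∈ D, ∃ N ∈ 𝓝 y, ∀ᶠ o in l, ∀ v : C(Y, ℂ), tsupport v ⊆ N → G o v) :
    ∀ᶠ o in l, ∀ v : C(Y, ℂ), tsupport v ⊆ D → G o v := by
  classical
  choose! N hN hG using h
  obtain ⟨t, htD, hcov⟩ := hD.elim_nhds_subcover (fun y => interior (N y))
    (fun y hy => interior_mem_nhds.2 (hN y hy))
  have h1 : ∀ᶠ o in l, ∀ y ∈ t, ∀ v : C(Y, ℂ), tsupport v ⊆ N y → G o v :=
    (Filter.eventually_all_finset t).2 fun y hy => hG y (htD y hy)
  filter_upwards [h1] with o ho v hv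
  let e := t.equivFin
  let s : Fin t.card → Set Y := fun i => interior (N (e.symm i))
  obtain ⟨f, hf1, hf2, -, -⟩ := exists_continuous_sum_one_of_isOpen_isCompact
    (s := s) (fun i => isOpen_interior) hD (by
      intro y hy
      obtain ⟨z, hz, hyz⟩ := mem_iUnion₂.1 (hcov hy)
      refine mem_iUnion.2 ⟨e ⟨z, hz⟩, ?_⟩
      simpa [s] using hyz)
  have hsum : v = ∑ i, (f i) • v := by
    ext y
    rw [ContinuousMap.sum_apply]
    simp only [ContinuousMap.smul_apply']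
    by_cases hy : y ∈ tsupport v
    · have h2 : (∑ i, f i y) = 1 := by
        have := hf2 (hv hy)
        simpa using this
      rw [← Finset.sum_smul, h2, one_smul]
    · rw [image_eq_zero_of_notMem_tsupport hy]
      simp
  rw [hsum]
  have hind : ∀ r : Finset (Fin t.card), G o (∑ i ∈ r, (f i) • v) := by
    intro r
    induction r using Finset.induction_on with
    | empty => simpa using h0 o
    | insert i r hi ih =>
      rw [Finset.sum_insert hi]
      refine ha o _ _ (ho (e.symm i) (e.symm i).2 _ ?_) ih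
      have h3 : tsupport ((f i) • v) ⊆ tsupport (f i) := by
        refine closure_mono fun y hy => ?_
        rw [Function.mem_support] at hy ⊢
        intro h4
        apply hy
        rw [ContinuousMap.smul_apply', h4, zero_smul]
      exact (h3.trans (hf1 i)).trans interior_subset
  exact hind _

end loc

/-! ### The rectangle lemma -/

section rect

variable {X Y K : Type*} [TopologicalSpace X] [CompactSpace X] [T2Space X]
  [TopologicalSpace Y] [CompactSpace Y] [T2Space Y]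
  [NormedAddCommGroup K] [InnerProductSpace ℂ K] [CompleteSpace K]

/-- no 4-cycles -/
def NoC4 (I : Set (X × Y)) : Prop :=
  ∀ x x' y y', x ≠ x' → y ≠ y' → (x, y) ∈ I → (x', y) ∈ I → (x', y') ∈ I → (x, y') ∉ I

/-- `P, Q` are carried by `I` -/
def Carr (I : Set (X × Y)) (P : C(X, ℂ) →⋆ₐ[ℂ] (K →L[ℂ] K)) (Q : C(Y, ℂ) →⋆ₐ[ℂ] (K →L[ℂ] K)) :
    Prop :=
  ∀ (u : C(X, ℂ)) (v : C(Y, ℂ)), (∀ x ∈ tsupport u, ∀ y ∈ tsupport v, (x, y) ∉ I) →
    P u * Q v = 0

theorem rect {I : Set (X × Y)} (hI : IsClosed I) (h4 : NoC4 I)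
    {P : C(X, ℂ) →⋆ₐ[ℂ] (K →L[ℂ] K)} {Q : C(Y, ℂ) →⋆ₐ[ℂ] (K →L[ℂ] K)} (hc : Carr I P Q)
    (hPQ : ∀ u v, Commute (P u) (Q v)) {T T' : K →L[ℂ] K} (hT : ∀ u, Commute T (P u))
    (hT' : ∀ v, Commute T' (Q v)) (hTT : Commute T T') (α χ : C(X, ℂ)) (χ' β : C(Y, ℂ))
    (d1 : Disjoint (tsupport α) (tsupport χ)) (d2 : Disjoint (tsupport χ') (tsupport β)) :
    P α * Q χ' * T' * T * P χ * Q β = 0 := by
  -- the local statement
  have loc : ∀ x ∈ tsupport α, ∀ y ∈ tsupport χ', ∀ x' ∈ tsupport χ, ∀ y' ∈ tsupport β,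
      ∃ N₁ ∈ 𝓝 x, ∃ N₂ ∈ 𝓝 y, ∃ N₃ ∈ 𝓝 x', ∃ N₄ ∈ 𝓝 y',
        ∀ (a : C(X, ℂ)) (b : C(Y, ℂ)) (c : C(X, ℂ)) (d : C(Y, ℂ)), tsupport a ⊆ N₁ →
          tsupport b ⊆ N₂ → tsupport c ⊆ N₃ → tsupport d ⊆ N₄ →
          P a * Q b * T' * T * P c * Q d = 0 := by
    intro x hx y hy x' hx' y' hy'
    have hxx : x ≠ x' := fun h => d1.le_bot ⟨hx, h ▸ hx'⟩
    have hyy : y ≠ y' := fun h => d2.le_bot ⟨hy, h ▸ hy'⟩
    have nb : ∀ (x₀ : X) (y₀ : Y), (x₀, y₀) ∉ I → ∃ M₁ ∈ 𝓝 x₀, ∃ M₂ ∈ 𝓝 y₀,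
        ∀ (a : C(X, ℂ)) (b : C(Y, ℂ)), tsupport a ⊆ M₁ → tsupport b ⊆ M₂ → P a * Q b = 0 := by
      intro x₀ y₀ h
      have h1 : Iᶜ ∈ 𝓝 (x₀, y₀) := hI.isOpen_compl.mem_nhds h
      rw [nhds_prod_eq, Filter.mem_prod_iff] at h1
      obtain ⟨M₁, hM₁, M₂, hM₂, hM⟩ := h1
      refine ⟨M₁, hM₁, M₂, hM₂, fun a b ha hb => hc a b fun z hz w hw => ?_⟩
      exact hM ⟨ha hz, hb hw⟩
    by_cases c1 : (x, y) ∈ I
    · by_cases c2 : (x', y) ∈ I
      · by_cases c3 : (x', y') ∈ I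
        · obtain ⟨M₁, hM₁, M₂, hM₂, hM⟩ := nb x y' (h4 x x' y y' hxx hyy c1 c2 c3)
          refine ⟨M₁, hM₁, univ, univ_mem, univ, univ_mem, M₂, hM₂, ?_⟩
          intro a b c d ha _ _ hd
          have e1 : P a * Q b * T' * T * P c * Q d = Q b * T * (P a * Q d) * T' * P c := by
            calc P a * Q b * T' * T * P c * Q d
                = P a * Q b * (T' * T) * P c * Q d := by simp only [mul_assoc]
              _ = P a * Q b * (T * T') * (P c * Q d) := by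
                  rw [hTT.eq.symm]; simp only [mul_assoc]
              _ = (P a * Q b) * T * (T' * (Q d * P c)) := by
                  rw [(hPQ c d).eq]; simp only [mul_assoc]
              _ = (Q b * P a) * T * ((T' * Q d) * P c) := by
                  rw [(hPQ a b).eq]; simp only [mul_assoc]
              _ = Q b * (P a * T) * ((Q d * T') * P c) := by
                  rw [(hT' d).eq]; simp only [mul_assoc]
              _ = Q b * (T * P a) * ((Q d * T') * P c) := by rw [(hT a).eq]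
              _ = Q b * T * (P a * Q d) * T' * P c := by simp only [mul_assoc]
          rw [e1, hM a d ha hd]
          simp
        · obtain ⟨M₁, hM₁, M₂, hM₂, hM⟩ := nb x' y' c3
          refine ⟨univ, univ_mem, univ, univ_mem, M₁, hM₁, M₂, hM₂, ?_⟩
          intro a b c d _ _ hc' hd
          have : P a * Q b * T' * T * P c * Q d = P a * Q b * T' * T * (P c * Q d) := by
            simp only [mul_assoc]
          rw [this, hM c d hc' hd, mul_zero]
      · obtain ⟨M₁, hM₁, M₂, hM₂, hM⟩ := nb x' y c2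
        refine ⟨univ, univ_mem, M₂, hM₂, M₁, hM₁, univ, univ_mem, ?_⟩
        intro a b c d _ hb hc' _
        have e1 : P a * Q b * T' * T * P c * Q d = P a * T' * (P c * Q b) * T * Q d := by
          calc P a * Q b * T' * T * P c * Q d
              = P a * (Q b * T') * (T * P c) * Q d := by simp only [mul_assoc]
            _ = P a * (T' * Q b) * (P c * T) * Q d := by rw [← (hT' b).eq, (hT c).eq]
            _ = P a * T' * (Q b * P c) * T * Q d := by simp only [mul_assoc]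
            _ = P a * T' * (P c * Q b) * T * Q d := by rw [(hPQ c b).eq]
        rw [e1, hM c b hc' hb]
        simp
    · obtain ⟨M₁, hM₁, M₂, hM₂, hM⟩ := nb x y c1
      refine ⟨M₁, hM₁, M₂, hM₂, univ, univ_mem, univ, univ_mem, ?_⟩
      intro a b c d ha hb _ _
      rw [hM a b ha hb]
      simp
  -- globalise the four variables one by one
  have g4 : ∀ x ∈ tsupport α, ∀ y ∈ tsupport χ', ∀ x' ∈ tsupport χ,
      ∃ N₁ ∈ 𝓝 x, ∃ N₂ ∈ 𝓝 y, ∃ N₃ ∈ 𝓝 x',
        ∀ (a : C(X, ℂ)) (b : C(Y, ℂ)) (c : C(X, ℂ)) (d : C(Y, ℂ)), tsupport a ⊆ N₁ →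
          tsupport b ⊆ N₂ → tsupport c ⊆ N₃ → tsupport d ⊆ tsupport β →
          P a * Q b * T' * T * P c * Q d = 0 := by
    intro x hx y hy x' hx'
    have := tube (ω := Set X × Set Y × Set X)
      ((𝓝 x).smallSets ×ˢ ((𝓝 y).smallSets ×ˢ (𝓝 x').smallSets))
      (fun o d => ∀ (a : C(X, ℂ)) (b : C(Y, ℂ)) (c : C(X, ℂ)), tsupport a ⊆ o.1 →
        tsupport b ⊆ o.2.1 → tsupport c ⊆ o.2.2 → P a * Q b * T' * T * P c * Q d = 0)
      (fun o a b c _ _ _ => by simp)
      (fun o u v hu hv a b c h1 h2 h3 => by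
        rw [map_add, mul_add, hu a b c h1 h2 h3, hv a b c h1 h2 h3, add_zero])
      (isClosed_tsupport β).isCompact
      (fun y' hy' => by
        obtain ⟨N₁, hN₁, N₂, hN₂, N₃, hN₃, N₄, hN₄, h⟩ := loc x hx y hy x' hx' y' hy'
        refine ⟨N₄, hN₄, ?_⟩
        filter_upwards [prod_mem_prod (eventually_smallSets_subset.2 hN₁) (prod_mem_prod
          (eventually_smallSets_subset.2 hN₂) (eventually_smallSets_subset.2 hN₃))] with o ho d hd
          a b c h1 h2 h3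
        exact h a b c d (h1.trans ho.1) (h2.trans ho.2.1) (h3.trans ho.2.2) hd)
    rw [Filter.eventually_iff, Filter.mem_prod_iff] at this
    obtain ⟨A₁, hA₁, A', hA', hA⟩ := this
    rw [Filter.mem_prod_iff] at hA'
    obtain ⟨A₂, hA₂, A₃, hA₃, hA''⟩ := hA'
    obtain ⟨N₁, hN₁, hN₁'⟩ := Filter.eventually_smallSets.1 hA₁
    obtain ⟨N₂, hN₂, hN₂'⟩ := Filter.eventually_smallSets.1 hA₂
    obtain ⟨N₃, hN₃, hN₃'⟩ := Filter.eventually_smallSets.1 hA₃
    refine ⟨N₁, hN₁, N₂, hN₂, N₃, hN₃, fun a b c d h1 h2 h3 h4 => ?_⟩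
    have hm : (N₁, N₂, N₃) ∈ A₁ ×ˢ A' :=
      ⟨hN₁' N₁ subset_rfl, hA'' ⟨hN₂' N₂ subset_rfl, hN₃' N₃ subset_rfl⟩⟩
    exact hA hm d h4 a b c h1 h2 h3
  have g3 : ∀ x ∈ tsupport α, ∀ y ∈ tsupport χ',
      ∃ N₁ ∈ 𝓝 x, ∃ N₂ ∈ 𝓝 y,
        ∀ (a : C(X, ℂ)) (b : C(Y, ℂ)) (c : C(X, ℂ)) (d : C(Y, ℂ)), tsupport a ⊆ N₁ →
          tsupport b ⊆ N₂ → tsupport c ⊆ tsupport χ → tsupport d ⊆ tsupport β →
          P a * Q b * T' * T * P c * Q d = 0 := by
    intro x hx y hy
    have := tube (ω := Set X × Set Y)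
      ((𝓝 x).smallSets ×ˢ (𝓝 y).smallSets)
      (fun o c => ∀ (a : C(X, ℂ)) (b : C(Y, ℂ)) (d : C(Y, ℂ)), tsupport a ⊆ o.1 →
        tsupport b ⊆ o.2 → tsupport d ⊆ tsupport β → P a * Q b * T' * T * P c * Q d = 0)
      (fun o a b c _ _ _ => by simp)
      (fun o u v hu hv a b c h1 h2 h3 => by
        rw [map_add, mul_add, add_mul, hu a b c h1 h2 h3, hv a b c h1 h2 h3, add_zero])
      (isClosed_tsupport χ).isCompact
      (fun x' hx' => by
        obtain ⟨N₁, hN₁, N₂, hN₂, N₃, hN₃, h⟩ := g4 x hx y hy x' hx'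
        refine ⟨N₃, hN₃, ?_⟩
        filter_upwards [prod_mem_prod (eventually_smallSets_subset.2 hN₁)
          (eventually_smallSets_subset.2 hN₂)] with o ho c hc a b d h1 h2 h3
        exact h a b c d (h1.trans ho.1) (h2.trans ho.2) hc h3)
    rw [Filter.eventually_iff, Filter.mem_prod_iff] at this
    obtain ⟨A₁, hA₁, A₂, hA₂, hA⟩ := this
    obtain ⟨N₁, hN₁, hN₁'⟩ := Filter.eventually_smallSets.1 hA₁
    obtain ⟨N₂, hN₂, hN₂'⟩ := Filter.eventually_smallSets.1 hA₂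
    refine ⟨N₁, hN₁, N₂, hN₂, fun a b c d h1 h2 h3 h4 => ?_⟩
    have hm : (N₁, N₂) ∈ A₁ ×ˢ A₂ := ⟨hN₁' N₁ subset_rfl, hN₂' N₂ subset_rfl⟩
    exact hA hm c h3 a b d h1 h2 h4
  have g2 : ∀ x ∈ tsupport α,
      ∃ N₁ ∈ 𝓝 x,
        ∀ (a : C(X, ℂ)) (b : C(Y, ℂ)) (c : C(X, ℂ)) (d : C(Y, ℂ)), tsupport a ⊆ N₁ →
          tsupport b ⊆ tsupport χ' → tsupport c ⊆ tsupport χ → tsupport d ⊆ tsupport β →
          P a * Q b * T' * T * P c * Q d = 0 := by
    intro x hx
    have := tube (ω := Set X) (𝓝 x).smallSets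
      (fun o b => ∀ (a : C(X, ℂ)) (c : C(X, ℂ)) (d : C(Y, ℂ)), tsupport a ⊆ o →
        tsupport c ⊆ tsupport χ → tsupport d ⊆ tsupport β → P a * Q b * T' * T * P c * Q d = 0)
      (fun o a b c _ _ _ => by simp)
      (fun o u v hu hv a c d h1 h2 h3 => by
        rw [map_add, mul_add, add_mul, add_mul, add_mul, add_mul, hu a c d h1 h2 h3,
          hv a c d h1 h2 h3, add_zero])
      (isClosed_tsupport χ').isCompact
      (fun y hy => by
        obtain ⟨N₁, hN₁, N₂, hN₂, h⟩ := g3 x hx y hy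
        refine ⟨N₂, hN₂, ?_⟩
        filter_upwards [eventually_smallSets_subset.2 hN₁] with o ho b hb a c d h1 h2 h3
        exact h a b c d (h1.trans ho) hb h2 h3)
    obtain ⟨N₁, hN₁, hN₁'⟩ := Filter.eventually_smallSets.1 this
    exact ⟨N₁, hN₁, fun a b c d h1 h2 h3 h4 => hN₁' N₁ subset_rfl b h2 a c d h1 h3 h4⟩
  have g1 := tube (ω := Unit) ⊤
    (fun _ a => ∀ (b : C(Y, ℂ)) (c : C(X, ℂ)) (d : C(Y, ℂ)), tsupport b ⊆ tsupport χ' →
      tsupport c ⊆ tsupport χ → tsupport d ⊆ tsupport β → P a * Q b * T' * T * P c * Q d = 0)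
    (fun o a b c _ _ _ => by simp)
    (fun o u v hu hv b c d h1 h2 h3 => by
      rw [map_add, add_mul, add_mul, add_mul, add_mul, add_mul, hu b c d h1 h2 h3,
        hv b c d h1 h2 h3, add_zero])
    (isClosed_tsupport α).isCompact
    (fun x hx => by
      obtain ⟨N₁, hN₁, h⟩ := g2 x hx
      refine ⟨N₁, hN₁, Filter.Eventually.of_forall fun _ a ha b c d h1 h2 h3 =>
        h a b c d ha h1 h2 h3⟩)
  rw [Filter.eventually_top] at g1
  exact g1 () α subset_rfl χ' χ β subset_rfl subset_rfl subset_rfl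

end rect

end Vale.Agent.P092.H356
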